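import Vale.Agent.P089G45.Inv
import Vale.Agent.P089GI.Ind
import Vale.Agent.P089GM.Miss
import Mathlib.RingTheory.TwoSidedIdeal.Basic

/-! P089: the index class in `K_0` of the unitized Roe algebra, as a function of the cycle. -/

set_option linter.unusedSectionVars false

namespace Vale.Agent.P089GG

open scoped InnerProductSpace ZeroAtInfty
open ContinuousLinearMap Vale.Agent.P089Z Vale.Agent.P089 Vale.Agent.P089.Asm Vale.Agent.P089GR
  Vale.Agent.P089G Vale.Agent.P089G45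

variable {G : Type} [Group G]

theorem ideal_add {a b : MonoidAlgebra OpN G} (ha : P089Z.Ideal a) (hb : P089Z.Ideal b) :
    P089Z.Ideal (a + b) := ⟨fun s => (ha.cp s).add (hb.cp s)⟩

variable (G) in
/-- The elements with compact coefficients. -/
noncomputable def II : TwoSidedIdeal (MonoidAlgebra OpN G) :=
  TwoSidedIdeal.mk' {a | P089Z.Ideal a} ⟨fun _ => Cp.zero⟩ ideal_add P089Z.Ideal.neg
    (fun h => P089Z.Ideal.mul_left _ h) fun h => P089Z.Ideal.mul_right h _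

theorem q_iff (a : MonoidAlgebra OpN G) : (II G).ringCon.mk' a = 0 ↔ P089Z.Ideal a := by
  rw [← map_zero (II G).ringCon.mk']
  refine (RingCon.eq _).trans ?_
  exact (TwoSidedIdeal.mem_iff _ _).symm.trans (TwoSidedIdeal.mem_mk' _ _ _ _ _ _ _)

theorem rep_mem {a : MonoidAlgebra OpN G} (h : P089Z.Ideal a) :
    rep (NonUnitalRingHom.id OpN) a ∈ UU G := roeU_le_UU (roeB_rep _ _ h.cp).mem_roeU

open Classical in
/-- The operator of an element with compact coefficients. -/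
noncomputable def jj (a : MonoidAlgebra OpN G) : UU G :=
  if h : P089Z.Ideal a then ⟨_, rep_mem h⟩ else 0

theorem jj_val {a : MonoidAlgebra OpN G} (h : P089Z.Ideal a) :
    (jj a).1 = rep (NonUnitalRingHom.id OpN) a := by rw [jj, dif_pos h]

theorem rep_smul (c : ℂ) (a : MonoidAlgebra OpN G) :
    rep (NonUnitalRingHom.id OpN) (c • a) = c • rep (NonUnitalRingHom.id OpN) a :=
  bl_ext fun g h => by rw [bl_smul, bl_rep, bl_rep]; rfl

variable (G) in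
/-- The relative situation. -/
noncomputable def RG : Rel (MonoidAlgebra OpN G) (II G).ringCon.Quotient (UU G) where
  q := (II G).ringCon.mk'
  j := jj
  j_add a b ha hb := by
    rw [q_iff] at ha hb
    apply Subtype.ext
    change _ = (jj a).1 + (jj b).1
    rw [jj_val ha, jj_val hb, jj_val (ideal_add ha hb), map_add]
  j_mul a b ha hb := by
    rw [q_iff] at ha hb
    apply Subtype.ext
    change _ = (jj a).1 * (jj b).1
    rw [jj_val ha, jj_val hb, jj_val (ha.mul_right b), map_mul]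
  j_smul c a ha := by
    rw [q_iff] at ha
    apply Subtype.ext
    change _ = c • (jj a).1
    have h : P089Z.Ideal (c • a) := ⟨fun s => IsCompactOperator.smul (ha.cp s) c⟩
    rw [jj_val ha, jj_val h, rep_smul]

theorem RG_cont {T : Type} [TopologicalSpace T] (γ : T → MonoidAlgebra OpN G) (h : γ ∈ Adm G T)
    (h0 : ∀ t, (RG G).q (γ t) = 0) : Continuous fun t => (RG G).j (γ t) := by
  refine Continuous.subtype_mk (f := fun t => (jj (γ t)).1) ?_ _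
  simp only [fun t => jj_val ((q_iff _).1 (h0 t))]
  exact adm_cont h

variable {X Y H K L : Type} [TopologicalSpace X] [MulAction G X] [ContinuousConstSMul G X]
  [TopologicalSpace Y] [MulAction G Y] [ContinuousConstSMul G Y]
  [NormedAddCommGroup H] [InnerProductSpace ℂ H] [CompleteSpace H]
  [NormedAddCommGroup K] [InnerProductSpace ℂ K] [CompleteSpace K]
  [NormedAddCommGroup L] [InnerProductSpace ℂ L] [CompleteSpace L]

theorem q_mp {φ : (H →L[ℂ] H) →ₙ+* OpN} (hφ : ∀ T, Cp T → Cp (φ T))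
    (a : MonoidAlgebra (H →L[ℂ] H) G) (h : P089Z.Ideal a) : (RG G).q (mp φ a) = 0 :=
  (q_iff _).2 ⟨fun s => hφ _ (h.cp s)⟩

variable [ProperlyDiscontinuousSMul G X] [ProperlyDiscontinuousSMul G Y] {v w : C₀(X, ℂ)}

theorem exists_dat (Z : Cycle G X H) (hw : IsCutoff G X w) {φ : (H →L[ℂ] H) →ₙ+* OpN}
    (hφ : ∀ T, Cp T → Cp (φ T)) : ∃ d : IDat (RG G), IsDat d Z w φ := by
  have hfin := finite_shift (G := G) hw.1
  have h0 : p0 Z w * p0 Z w = p0 Z w :=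
    mul_idem (Z.proj_idem hw hfin) (single_idem Z.e₀_idem) (Z.comm₀ hfin)
  have h1 : p1 Z w * p1 Z w = p1 Z w :=
    mul_idem (Z.proj_idem hw hfin) (single_idem Z.e₁_idem) (Z.comm₁ hfin)
  have k0 : P089Z.Ideal (p0 Z w - opS Z w * opT Z w) :=
    defect_ideal (Z.proj_idem hw hfin) (single_idem Z.e₀_idem)
      (single_idem Z.e₁_idem) (Z.comm₀ hfin) (Z.comm₁ hfin) (single_tw Z.F_e₀)
      (Z.ideal_comm hfin) (Z.ideal_sq hfin)
  have k1 : P089Z.Ideal (p1 Z w - opT Z w * opS Z w) :=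
    defect_ideal (Z.proj_idem hw hfin) (single_idem Z.e₁_idem)
      (single_idem Z.e₀_idem) (Z.comm₁ hfin) (Z.comm₀ hfin) (single_tw Z.F_e₁)
      (Z.ideal_comm hfin) (Z.ideal_sq hfin)
  refine ⟨⟨mp φ (p0 Z w), mp φ (p1 Z w), mp φ (opT Z w), mp φ (opS Z w), ?_, ?_, ?_, ?_, ?_, ?_,
    ?_, ?_⟩, rfl, rfl, rfl, rfl⟩
  · rw [← map_mul, h0]
  · rw [← map_mul, h1]
  · rw [← map_mul, opT, mul_assoc, h0]
  · rw [← map_mul, opT, ← mul_assoc, ← mul_assoc, h1]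
  · rw [← map_mul, opS, ← mul_assoc, ← mul_assoc, h0]
  · rw [← map_mul, opS, mul_assoc, h1]
  · have h := q_mp hφ _ k0
    rw [map_sub, map_sub, sub_eq_zero, map_mul] at h
    exact h.symm
  · have h := q_mp hφ _ k1
    rw [map_sub, map_sub, sub_eq_zero, map_mul] at h
    exact h.symm

/-- The index matrix over `UU G`. -/
noncomputable def matU (Z : Cycle G X H) (hw : IsCutoff G X w) {φ : (H →L[ℂ] H) →ₙ+* OpN}
    (hφ : ∀ T, Cp T → Cp (φ T)) : Matrix (Fin 2) (Fin 2) (UU G) :=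
  Matrix.of fun i k => ⟨rep φ (Z.index (Z.proj w) i k), roeU_le_UU (roeB_rep _ _ fun s =>
    hφ _ ((Z.index_ideal hw (finite_shift hw.1) i k).cp s)).mem_roeU⟩

theorem matU_val (Z : Cycle G X H) (hw : IsCutoff G X w) {φ : (H →L[ℂ] H) →ₙ+* OpN}
    (hφ : ∀ T, Cp T → Cp (φ T)) (i k : Fin 2) :
    (matU Z hw hφ i k).1 = rep φ (Z.index (Z.proj w) i k) := rfl

theorem matU_roeB (Z : Cycle G X H) (hw : IsCutoff G X w) {φ : (H →L[ℂ] H) →ₙ+* OpN}
    (hφ : ∀ T, Cp T → Cp (φ T)) (i k : Fin 2) : RoeB (matU Z hw hφ i k).1 :=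
  roeB_rep _ _ fun s => hφ _ ((Z.index_ideal hw (finite_shift hw.1) i k).cp s)

theorem map_indexMat {A B : Type} [Ring A] [Ring B] (f : A →ₙ+* B) (a b c e : A) (i k : Fin 2) :
    f (indexMat a b c e i k) = indexMat (f a) (f b) (f c) (f e) i k := by
  fin_cases i <;> fin_cases k <;> simp [indexMat, sq]

theorem dat_eq {d : IDat (RG G)} {Z : Cycle G X H} (hw : IsCutoff G X w)
    {φ : (H →L[ℂ] H) →ₙ+* OpN} (hφ : ∀ T, Cp T → Cp (φ T)) (h : IsDat d Z w φ) :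
    ∃ e : addDiag (matU Z hw hφ) * addDiag (matU Z hw hφ) = addDiag (matU Z hw hφ),
      d.ind = KZero.cls _ e - KZero.cls (diag01 (UU G)) (P089G.diag01_idem _) := by
  refine ind_eq_cls d _ fun i k => Subtype.ext ?_
  have h1 : indexMat d.p₀ d.p₁ d.T d.S i k = mp φ (Z.index (Z.proj w) i k) := by
    rw [h.e₀, h.e₁, h.eT, h.eS, ← map_indexMat]
    rfl
  change _ = (jj _).1
  rw [jj_val ((q_iff _).1 (q_indexMat d i k)), h1, rep_mp, matU_val]

theorem matU_idem (Z : Cycle G X H) (hw : IsCutoff G X w) {φ : (H →L[ℂ] H) →ₙ+* OpN}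
    (hφ : ∀ T, Cp T → Cp (φ T)) :
    addDiag (matU Z hw hφ) * addDiag (matU Z hw hφ) = addDiag (matU Z hw hφ) := by
  obtain ⟨d, hd⟩ := exists_dat Z hw hφ
  exact (dat_eq hw hφ hd).1

/-- The index class for a cutoff and a homomorphism. -/
noncomputable def cl (Z : Cycle G X H) (hw : IsCutoff G X w) {φ : (H →L[ℂ] H) →ₙ+* OpN}
    (hφ : ∀ T, Cp T → Cp (φ T)) : KZero (UU G) :=
  KZero.cls _ (matU_idem Z hw hφ) - KZero.cls (diag01 (UU G)) (P089G.diag01_idem _)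

theorem ind_cl {d : IDat (RG G)} {Z : Cycle G X H} (hw : IsCutoff G X w)
    {φ : (H →L[ℂ] H) →ₙ+* OpN} (hφ : ∀ T, Cp T → Cp (φ T)) (h : IsDat d Z w φ) :
    d.ind = cl Z hw hφ := (dat_eq hw hφ h).2

theorem toI {Q B : Type} [Ring Q] [NormedRing B] [NormedAlgebra ℂ B] [CompleteSpace B]
    {R : Rel (MonoidAlgebra OpN G) Q B} {d : IDat R} {Z : Cycle G X H}
    {φ : (H →L[ℂ] H) →ₙ+* OpN} (h : IsDat d Z w φ) :
    P089GI.IsDat (mp φ) Z (Z.proj w) d := ⟨h.e₀, h.e₁, h.eT, h.eS⟩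

theorem cl_mem (Z : Cycle G X H) (hw : IsCutoff G X w) {φ : (H →L[ℂ] H) →ₙ+* OpN}
    (hφ : ∀ T, Cp T → Cp (φ T)) : cl Z hw hφ ∈ FP G :=
  index_mem_FP _ fun i k => (matU_roeB Z hw hφ i k).mem_roeU

theorem cl_push (j : CocompactMap X Y) (hj : ∀ (g : G) x, j (g • x) = g • j x) {Z : Cycle G X H}
    {Z' : Cycle G Y H} (hγ : Z'.γ = Z.γ) (hρ : ∀ f, Z'.ρ f = Z.ρ (f.comp j)) (hU : Z'.U = Z.U)
    (hF : Z'.F = Z.F) {w' : C₀(Y, ℂ)} (hv : IsCutoff G X v) (hw : IsCutoff G Y w')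
    {φ : (H →L[ℂ] H) →ₙ+* OpN} (hφ : ∀ T, Cp T → Cp (φ T)) : cl Z hv hφ = cl Z' hw hφ := by
  obtain ⟨d, hd⟩ := exists_dat Z hv hφ
  obtain ⟨d', hd'⟩ := exists_dat Z' hw hφ
  rw [← ind_cl hv hφ hd, ← ind_cl hw hφ hd']
  exact P089GI.ind_push' (R := RG G) (mp φ) (q_mp hφ) j hj hγ hρ hU hF hv hw (toI hd) (toI hd')

theorem cl_cutoff (Z : Cycle G X H) (hv : IsCutoff G X v) (hw : IsCutoff G X w)
    {φ : (H →L[ℂ] H) →ₙ+* OpN} (hφ : ∀ T, Cp T → Cp (φ T)) : cl Z hv hφ = cl Z hw hφ := by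
  obtain ⟨d, hd⟩ := exists_dat Z hv hφ
  obtain ⟨d', hd'⟩ := exists_dat Z hw hφ
  rw [← ind_cl hv hφ hd, ← ind_cl hw hφ hd']
  exact P089GI.ind_cutoff' (R := RG G) (mp φ) (q_mp hφ) Z hv hw (toI hd) (toI hd')

theorem cl_unit {a : Cycle G X H} {b : Cycle G X K} {u : H →L[ℂ] K} (h : Emb a b u)
    (hu : u ∘L adjoint u = 1) (hw : IsCutoff G X w) {V : H →L[ℂ] L2 ℕ} {V' : K →L[ℂ] L2 ℕ}
    (hV : adjoint V ∘L V = 1) (hV' : adjoint V' ∘L V' = 1) :
    cl a hw (adV_cp hV) = cl b hw (adV_cp hV') := by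
  obtain ⟨d, hd⟩ := exists_dat a hw (adV_cp hV)
  obtain ⟨d', hd'⟩ := exists_dat b hw (adV_cp hV')
  rw [← ind_cl hw _ hd, ← ind_cl hw _ hd']
  exact ind_unit h hu (finite_shift hw.1) hd hd'

theorem cl_iso (Z : Cycle G X H) (hw : IsCutoff G X w) {V V' : H →L[ℂ] L2 ℕ}
    (hV : adjoint V ∘L V = 1) (hV' : adjoint V' ∘L V' = 1) :
    cl Z hw (adV_cp hV) = cl Z hw (adV_cp hV') := by
  obtain ⟨d, hd⟩ := exists_dat Z hw (adV_cp hV)
  obtain ⟨d', hd'⟩ := exists_dat Z hw (adV_cp hV')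
  rw [← ind_cl hw _ hd, ← ind_cl hw _ hd']
  exact ind_iso hd hd'

theorem cl_sum {a : Cycle G X H} {b : Cycle G X K} {c : Cycle G X L} {u : H →L[ℂ] L}
    {u' : K →L[ℂ] L} (h : Emb a c u) (h' : Emb b c u')
    (hu : u ∘L adjoint u + u' ∘L adjoint u' = 1) (hw : IsCutoff G X w) {V : L →L[ℂ] L2 ℕ}
    (hV : adjoint V ∘L V = 1) : cl c hw (adV_cp hV) =
      cl a hw (adV_cp (iso_comp h.iso hV)) + cl b hw (adV_cp (iso_comp h'.iso hV)) := by
  obtain ⟨d, hd⟩ := exists_dat c hw (adV_cp hV)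
  obtain ⟨da, ha⟩ := exists_dat a hw (adV_cp (iso_comp h.iso hV))
  obtain ⟨db, hb⟩ := exists_dat b hw (adV_cp (iso_comp h'.iso hV))
  rw [← ind_cl hw _ hd, ← ind_cl hw _ ha, ← ind_cl hw _ hb]
  rw [← adV_comp h.iso hV] at ha
  rw [← adV_comp h'.iso hV] at hb
  exact ind_sum_comp h h' hu (finite_shift hw.1) hd ha hb

theorem cl_htpy {T : Type} [TopologicalSpace T] [PreconnectedSpace T] (c : T → Cycle G X H)
    (a : Cycle G X H) (h : ∀ t, (c t).γ = a.γ ∧ (c t).ρ = a.ρ ∧ (c t).U = a.U)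
    (hF : Continuous fun t => (c t).F) (hw : IsCutoff G X w) {V : H →L[ℂ] L2 ℕ}
    (hV : adjoint V ∘L V = 1) (s t : T) : cl (c s) hw (adV_cp hV) = cl (c t) hw (adV_cp hV) := by
  choose d hd using fun t => exists_dat (c t) hw (adV_cp hV)
  rw [← ind_cl hw _ (hd s), ← ind_cl hw _ (hd t)]
  exact ind_htpy (R := RG G) RG_cont c a h hF (adV_cont hV) d hd s t

end Vale.Agent.P089GG
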