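import Vale.Agent.P089GG.Cl
import Vale.Agent.P089GS.Trans
import Vale.Agent.P089GU.Idx

/-! P089: the index of a cycle in `K_0` of the reduced group C*-algebra. -/

set_option linter.unusedSectionVars false

namespace Vale.Agent.P089GG

open scoped InnerProductSpace ZeroAtInfty
open ContinuousLinearMap Vale.Agent.P089Z Vale.Agent.P089 Vale.Agent.P089.Asm Vale.Agent.P089GR
  Vale.Agent.P089G Vale.Agent.P089G45 TopologicalSpace

variable {G : Type} [Group G] {X Y H K L : Type} [TopologicalSpace X] [MulAction G X]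
  [ContinuousConstSMul G X] [TopologicalSpace Y] [MulAction G Y] [ContinuousConstSMul G Y]
  [NormedAddCommGroup H] [InnerProductSpace ℂ H] [CompleteSpace H]
  [NormedAddCommGroup K] [InnerProductSpace ℂ K] [CompleteSpace K]
  [NormedAddCommGroup L] [InnerProductSpace ℂ L] [CompleteSpace L]

/-- A separable Hilbert space has a countable orthonormal basis. -/
theorem exists_basis (hs : SeparableSpace H) :
    ∃ (ι : Type) (_ : HilbertBasis ι ℂ H), Nonempty (ι ↪ ℕ) := by
  obtain ⟨s, b, -⟩ := exists_hilbertBasis ℂ H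
  have hc : s.Countable := by
    have h1 : (Set.univ : Set s).PairwiseDisjoint fun x : s => Metric.ball (b x) (1 / 2) := by
      intro x _ y _ hxy
      refine Metric.ball_disjoint_ball ?_
      have h2 : ‖b x - b y‖ ^ 2 = 2 := by
        rw [@norm_sub_sq ℂ, b.orthonormal.1, b.orthonormal.1, b.orthonormal.2 hxy]
        norm_num
      rw [dist_eq_norm]
      nlinarith [norm_nonneg (b x - b y)]
    have h2 := h1.countable_of_isOpen (fun _ _ => Metric.isOpen_ball)
      (fun x _ => Metric.nonempty_ball.2 (by norm_num))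
    exact Set.countable_coe_iff.1 (Set.countable_univ_iff.1 h2)
  have : Countable s := hc
  obtain ⟨u, hu⟩ := exists_injective_nat s
  exact ⟨s, b, ⟨⟨u, hu⟩⟩⟩

theorem exists_iso (hs : SeparableSpace H) : ∃ V : H →L[ℂ] L2 ℕ, adjoint V ∘L V = 1 := by
  obtain ⟨ι, d, ⟨u⟩⟩ := exists_basis hs
  exact ⟨isoN d u, isoN_iso d u⟩

theorem cj_cp {ι : Type} (d : HilbertBasis ι ℂ H) (u : ι ↪ ℕ) (T : H →L[ℂ] H) (h : Cp T) :
    Cp (cj d u T) := cj_compact d u h

theorem cl_congr [ProperlyDiscontinuousSMul G X] (Z : Cycle G X H) {w : C₀(X, ℂ)}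
    (hw : IsCutoff G X w) {φ ψ : (H →L[ℂ] H) →ₙ+* OpN} (hφ : ∀ T, Cp T → Cp (φ T))
    (hψ : ∀ T, Cp T → Cp (ψ T)) (h : φ = ψ) : cl Z hw hφ = cl Z hw hψ := by
  subst h
  rfl

/-- The index class in `K_0(UU G)`. -/
noncomputable def iU (hX : IsProperCocompact G X) (hs : SeparableSpace H) (Z : Cycle G X H) :
    KZero (UU G) :=
  haveI := hX.2.2.1
  cl Z (exists_cutoff hX).choose_spec (adV_cp (exists_iso hs).choose_spec)

theorem iU_eq (hX : IsProperCocompact G X) (hs : SeparableSpace H) (Z : Cycle G X H)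
    [ProperlyDiscontinuousSMul G X] {w : C₀(X, ℂ)} (hw : IsCutoff G X w) {V : H →L[ℂ] L2 ℕ}
    (hV : adjoint V ∘L V = 1) : iU hX hs Z = cl Z hw (adV_cp hV) :=
  (cl_cutoff Z _ hw _).trans (cl_iso Z hw _ hV)

theorem iU_cj (hX : IsProperCocompact G X) (hs : SeparableSpace H) (Z : Cycle G X H)
    [ProperlyDiscontinuousSMul G X] {w : C₀(X, ℂ)} (hw : IsCutoff G X w) {ι : Type}
    (d : HilbertBasis ι ℂ H) (u : ι ↪ ℕ) : iU hX hs Z = cl Z hw (cj_cp d u) :=
  (iU_eq hX hs Z hw (isoN_iso d u)).trans (cl_congr Z hw _ _ (cj_eq d u).symm)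

theorem iU_mem (hX : IsProperCocompact G X) (hs : SeparableSpace H) (Z : Cycle G X H) :
    iU hX hs Z ∈ FP G :=
  haveI := hX.2.2.1
  cl_mem Z _ _

theorem iU_unit (hX : IsProperCocompact G X) (hs : SeparableSpace H) (hs' : SeparableSpace K)
    {a : Cycle G X H} {b : Cycle G X K} {u : H →L[ℂ] K} (h : Emb a b u)
    (hu : u ∘L adjoint u = 1) : iU hX hs a = iU hX hs' b :=
  haveI := hX.2.2.1
  cl_unit h hu _ _ _

theorem iU_sum (hX : IsProperCocompact G X) (hs : SeparableSpace H) (hs' : SeparableSpace K)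
    (hs'' : SeparableSpace L) {a : Cycle G X H} {b : Cycle G X K} {c : Cycle G X L}
    {u : H →L[ℂ] L} {u' : K →L[ℂ] L} (h : Emb a c u) (h' : Emb b c u')
    (hu : u ∘L adjoint u + u' ∘L adjoint u' = 1) :
    iU hX hs'' c = iU hX hs a + iU hX hs' b := by
  have := hX.2.2.1
  obtain ⟨w, hw⟩ := exists_cutoff hX
  obtain ⟨V, hV⟩ := exists_iso hs''
  rw [iU_eq hX hs'' c hw hV, iU_eq hX hs a hw (iso_comp h.iso hV),
    iU_eq hX hs' b hw (iso_comp h'.iso hV)]
  exact cl_sum h h' hu hw hV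

theorem iU_htpy (hX : IsProperCocompact G X) (hs : SeparableSpace H) {T : Type}
    [TopologicalSpace T] [PreconnectedSpace T] (c : T → Cycle G X H) (a : Cycle G X H)
    (h : ∀ t, (c t).γ = a.γ ∧ (c t).ρ = a.ρ ∧ (c t).U = a.U) (hF : Continuous fun t => (c t).F)
    (s t : T) : iU hX hs (c s) = iU hX hs (c t) :=
  haveI := hX.2.2.1
  cl_htpy c a h hF _ _ s t

theorem iU_push (hX : IsProperCocompact G X) (hY : IsProperCocompact G Y) (hs : SeparableSpace H)
    (j : CocompactMap X Y) (hj : ∀ (g : G) x, j (g • x) = g • j x) {Z : Cycle G X H}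
    {Z' : Cycle G Y H} (hγ : Z'.γ = Z.γ) (hρ : ∀ f, Z'.ρ f = Z.ρ (f.comp j)) (hU : Z'.U = Z.U)
    (hF : Z'.F = Z.F) : iU hY hs Z' = iU hX hs Z :=
  haveI := hX.2.2.1
  haveI := hY.2.2.1
  (cl_push j hj hγ hρ hU hF _ _ _).symm

section Cor

variable {A : Type} [Ring A]

/-- The corner map induces an isomorphism onto the `K_0`-group of the ideal. -/
structure Cor (cor : A →ₙ+* UU G) : Prop where
  inj : Function.Injective (KZero.map cor)
  rng : ∀ (e f : Matrix (Fin 2) (Fin 2) (UU G)) (he : e * e = e) (hf : f * f = f),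
    (∀ i j, (e i j - f i j).1 ∈ closure {S | IsRoe S}) →
      ∃ x, KZero.map cor x = KZero.cls e he - KZero.cls f hf
  one : (cor 1).1 = Ei 0 0 1

theorem cor_cor : Cor (P089G44.cor G) :=
  ⟨P089G44.corK_inj, fun _ _ he hf h => (P089G44.corK_range' he hf h).exists, rfl⟩

theorem cor_corA {σ : Type} [SetLike σ (K →L[ℂ] K)] [SubringClass σ (K →L[ℂ] K)]
    (b : HilbertBasis G ℂ K) (B : σ) (hB : ∀ T, T ∈ B ↔ T ∈ BC.CstarR b) :
    Cor (P089GS.corA b B hB) :=
  ⟨P089GS.map_corA_inj b B hB, fun _ _ he hf h => (P089GS.corA_range b B hB he hf h).exists,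
    congrArg (Ei 0 0) (map_one (BC.frE b))⟩

variable {cor : A →ₙ+* UU G} (hc : Cor cor)

include hc in
theorem exists_idx (hX : IsProperCocompact G X) (hs : SeparableSpace H) (Z : Cycle G X H) :
    ∃ x, KZero.map cor x = iU hX hs Z := by
  have := hX.2.2.1
  refine hc.rng _ _ _ _ fun i j => subset_closure ?_
  rw [addDiag, Matrix.add_apply, add_sub_cancel_right]
  exact (matU_roeB Z _ _ i j).isRoe

/-- The index of a cycle. -/
noncomputable def idx (hX : IsProperCocompact G X) (hs : SeparableSpace H) (Z : Cycle G X H) :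
    KZero A := (exists_idx hc hX hs Z).choose

theorem cor_idx (hX : IsProperCocompact G X) (hs : SeparableSpace H) (Z : Cycle G X H) :
    KZero.map cor (idx hc hX hs Z) = iU hX hs Z := (exists_idx hc hX hs Z).choose_spec

theorem idx_mem (hX : IsProperCocompact G X) (hs : SeparableSpace H) (Z : Cycle G X H) :
    KZero.map cor (idx hc hX hs Z) ∈ FP G := cor_idx hc hX hs Z ▸ iU_mem hX hs Z

/-- The characterisation of the index. -/
theorem eq_idx_iff (hX : IsProperCocompact G X) (hs : SeparableSpace H) (Z : Cycle G X H)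
    [ProperlyDiscontinuousSMul G X] {w : C₀(X, ℂ)} (hw : IsCutoff G X w) {ι : Type}
    (d : HilbertBasis ι ℂ H) (u : ι ↪ ℕ) (x : KZero A) :
    x = idx hc hX hs Z ↔ KZero.map cor x = cl Z hw (cj_cp d u) := by
  rw [← iU_cj hX hs Z hw d u, ← cor_idx hc, hc.inj.eq_iff]

theorem idx_unit (hX : IsProperCocompact G X) (hs : SeparableSpace H) (hs' : SeparableSpace K)
    {a : Cycle G X H} {b : Cycle G X K} {u : H →L[ℂ] K} (h : Emb a b u)
    (hu : u ∘L adjoint u = 1) : idx hc hX hs a = idx hc hX hs' b :=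
  hc.inj (by rw [cor_idx, cor_idx, iU_unit hX hs hs' h hu])

theorem idx_sum (hX : IsProperCocompact G X) (hs : SeparableSpace H) (hs' : SeparableSpace K)
    (hs'' : SeparableSpace L) {a : Cycle G X H} {b : Cycle G X K} {c : Cycle G X L}
    {u : H →L[ℂ] L} {u' : K →L[ℂ] L} (h : Emb a c u) (h' : Emb b c u')
    (hu : u ∘L adjoint u + u' ∘L adjoint u' = 1) :
    idx hc hX hs'' c = idx hc hX hs a + idx hc hX hs' b :=
  hc.inj (by rw [map_add, cor_idx, cor_idx, cor_idx, iU_sum hX hs hs' hs'' h h' hu])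

theorem idx_htpy (hX : IsProperCocompact G X) (hs : SeparableSpace H) {T : Type}
    [TopologicalSpace T] [PreconnectedSpace T] (c : T → Cycle G X H) (a : Cycle G X H)
    (h : ∀ t, (c t).γ = a.γ ∧ (c t).ρ = a.ρ ∧ (c t).U = a.U) (hF : Continuous fun t => (c t).F)
    (s t : T) : idx hc hX hs (c s) = idx hc hX hs (c t) :=
  hc.inj (by rw [cor_idx, cor_idx, iU_htpy hX hs c a h hF s t])

theorem idx_push (hX : IsProperCocompact G X) (hY : IsProperCocompact G Y)
    (hs : SeparableSpace H) (j : CocompactMap X Y) (hj : ∀ (g : G) x, j (g • x) = g • j x)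
    {Z : Cycle G X H} {Z' : Cycle G Y H} (hγ : Z'.γ = Z.γ) (hρ : ∀ f, Z'.ρ f = Z.ρ (f.comp j))
    (hU : Z'.U = Z.U) (hF : Z'.F = Z.F) : idx hc hY hs Z' = idx hc hX hs Z :=
  hc.inj (by rw [cor_idx, cor_idx, iU_push hX hY hs j hj hγ hρ hU hF])

/-- On a nonempty space the class of the unit is an index. -/
theorem exists_idx_one [Countable G] (hX : IsProperCocompact G X) (y : X) :
    ∃ Z : Cycle G X (L2 G), idx hc hX (P089GU.separable_L2 G) Z =
      KZero.cls (1 : Matrix (Fin 1) (Fin 1) A) (mul_one _) := by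
  have := hX.2.2.1
  obtain ⟨Z, hZ⟩ := P089GU.exists_unit (G := G) y
  obtain ⟨w, hw⟩ := exists_cutoff hX
  obtain ⟨ι, d, ⟨u⟩⟩ := exists_basis (P089GU.separable_L2 G)
  obtain ⟨V, W, hV, hW, h1, h2⟩ := hZ w hw ι d u
  refine ⟨Z, ((eq_idx_iff hc hX _ Z hw d u _).2 ?_).symm⟩
  rw [KZero.map_cls]
  refine ((indexEq_iff (valU G) valU_inj isU_iff_valU _ _).1 ?_).symm
  have h3 : (matU Z hw (cj_cp d u)).map (valU G) = !![V * W, 0; 0, 0] := h2
  have h4 : ((1 : Matrix (Fin 1) (Fin 1) A).map cor).map (valU G) = !![W * V] := by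
    ext1 i j
    fin_cases i
    fin_cases j
    exact hc.one.trans h1.symm
  rw [h3, h4]
  exact P089GU.indexEq_of (isU_of_mem_UU (UU G).zero_mem) (isU_of_mem_UU (UU G).one_mem)
    (isU_of_mem_UU (roeU_le_UU hV.mem_roeU)) (isU_of_mem_UU (roeU_le_UU hW.mem_roeU))

end Cor

end Vale.Agent.P089GG
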