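import Vale.Agent.P089GG.Idx
import Vale.Agent.P089GP.Plug
import Vale.Agent.P089G45.Alg
import Vale.Agent.P089GE.Ex

/-! P089: the assembly map on the K-homology of the classifying space for proper actions. -/

set_option linter.unusedSectionVars false

namespace Vale.Agent.P089GG

open scoped InnerProductSpace ZeroAtInfty
open ContinuousLinearMap Vale.Agent.P089Z Vale.Agent.P089 Vale.Agent.P089.Asm Vale.Agent.P089GR
  Vale.Agent.P089G Vale.Agent.P089G45 Vale.Agent.P089GS TopologicalSpace Topology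

section Lift

variable {G X : Type} [Group G] [TopologicalSpace X] [MulAction G X] [ContinuousConstSMul G X]
  [CWComplex (Set.univ : Set X)] {Γ : Type} [AddCommGroup Γ]

theorem push_of {Y Y' : Sub G X} (h : Y ≤ Y') (c : Cyc G Y.Y) :
    Sub.push Y Y' h (Pres.of _ _ c) = Pres.of _ _ (c.push (Sub.incl h) (Sub.incl_smul h)) :=
  Pres.map_of _ (Cyc.push_sim _ _) (Cyc.push_isSum _ _) c

variable (f : ∀ Y : Sub G X, Cyc G Y.Y → Γ) (h1 : ∀ Y a b, a.Sim b → f Y a = f Y b)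
  (h2 : ∀ Y a b c, a.IsSum b c → f Y c = f Y a + f Y b)
  (h3 : ∀ Y Y' (h : Y ≤ Y') c, f Y' (c.push (Sub.incl h) (Sub.incl_smul h)) = f Y c)

include h3 in
theorem lift_push (Y Y' : Sub G X) (h : Y ≤ Y') (x : KK G Y.Y) :
    Pres.lift (f Y') (h1 Y') (h2 Y') (Sub.push Y Y' h x) = Pres.lift (f Y) (h1 Y) (h2 Y) x := by
  refine DFunLike.congr_fun (Pres.hom_ext
    (φ := (Pres.lift (f Y') (h1 Y') (h2 Y')).comp (Sub.push Y Y' h)) fun c => ?_) x
  rw [AddMonoidHom.comp_apply, push_of, Pres.lift_of, Pres.lift_of, h3]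

/-- The homomorphism given by an invariant of cycles. -/
noncomputable def kLift : KG0 G X →+ Γ :=
  AddCommGroup.DirectLimit.lift (fun Y : Sub G X => KK G Y.Y) Sub.push Γ
    (fun Y => Pres.lift (f Y) (h1 Y) (h2 Y)) (lift_push f h1 h2 h3)

theorem kLift_cls (Y : Sub G X) (c : Cyc G Y.Y) : kLift f h1 h2 h3 (KG0.cls Y c) = f Y c :=
  (AddCommGroup.DirectLimit.lift_of (G := fun Y : Sub G X => KK G Y.Y) (f := Sub.push) Γ _
    (lift_push f h1 h2 h3) Y _).trans (Pres.lift_of _ _ _ c)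

theorem k_ext {φ ψ : KG0 G X →+ Γ} (h : ∀ Y c, φ (KG0.cls Y c) = ψ (KG0.cls Y c)) : φ = ψ :=
  AddCommGroup.DirectLimit.hom_ext (G := fun Y : Sub G X => KK G Y.Y) (f := Sub.push) Γ
    fun Y => Pres.hom_ext (h Y)

theorem k_mem (φ : KG0 G X →+ Γ) (S : AddSubgroup Γ) (h : ∀ Y c, φ (KG0.cls Y c) ∈ S)
    (x : KG0 G X) : φ x ∈ S := by
  have h0 : (QuotientAddGroup.mk' S).comp φ = 0 :=
    k_ext fun Y c => (QuotientAddGroup.eq_zero_iff _).2 (h Y c)
  exact (QuotientAddGroup.eq_zero_iff _).1 (DFunLike.congr_fun h0 x)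

end Lift

section Cyc

variable {G Y Y' A : Type} [Group G] [TopologicalSpace Y] [MulAction G Y]
  [ContinuousConstSMul G Y] [TopologicalSpace Y'] [MulAction G Y'] [ContinuousConstSMul G Y']
  [Ring A] {cor : A →ₙ+* UU G} (hc : Cor cor)

theorem toEmb {H K : Type} [NormedAddCommGroup H] [InnerProductSpace ℂ H] [CompleteSpace H]
    [NormedAddCommGroup K] [InnerProductSpace ℂ K] [CompleteSpace K] {a : Cycle G Y H}
    {b : Cycle G Y K} {v : H →L[ℂ] K} (h : Embeds a b v) : Emb a b v :=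
  ⟨h.iso, h.γ, h.ρ, h.U, h.F⟩

/-- The index of a bundled cycle. -/
noncomputable def idxC (hY : IsProperCocompact G Y) (c : Cyc G Y) : KZero A :=
  letI := c.nacg
  letI := c.ips
  letI := c.cs
  idx hc hY c.sep c.Z

theorem idxC_mk (hY : IsProperCocompact G Y) {H : Type} [NormedAddCommGroup H]
    [InnerProductSpace ℂ H] [CompleteSpace H] [hs : SeparableSpace H] (Z : Cycle G Y H) :
    idxC hc hY ⟨H, Z⟩ = idx hc hY hs Z := rfl

theorem idxC_sim (hY : IsProperCocompact G Y) (a b : Cyc G Y) (h : a.Sim b) :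
    idxC hc hY a = idxC hc hY b := by
  obtain ⟨a, b, u, e1, e2⟩ | ⟨_, _, c, rfl, rfl, e1, e2⟩ := h
  · exact idx_unit hc hY _ _ (toEmb e1) e2
  · exact idx_htpy hc hY _ c _ e1 e2 0 1

theorem idxC_sum (hY : IsProperCocompact G Y) (a b c : Cyc G Y) (h : a.IsSum b c) :
    idxC hc hY c = idxC hc hY a + idxC hc hY b := by
  obtain ⟨a, b, c, u, v, e1, e2, e3⟩ := h
  exact idx_sum hc hY _ _ _ (toEmb e1) (toEmb e2) e3

theorem idxC_push (hY : IsProperCocompact G Y) (hY' : IsProperCocompact G Y')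
    (j : CocompactMap Y Y') (hj : ∀ (g : G) y, j (g • y) = g • j y) (c : Cyc G Y) :
    idxC hc hY' (c.push j hj) = idxC hc hY c := by
  obtain @⟨H, _, _, _, hs, Z⟩ := c
  exact idx_push hc hY hY' hs j hj (Z := Z) (Z' := P089G.push j hj Z) rfl (fun _ => rfl) rfl rfl

theorem idxC_mem (hY : IsProperCocompact G Y) (c : Cyc G Y) :
    KZero.map cor (idxC hc hY c) ∈ FP G := by
  obtain @⟨H, _, _, _, hs, Z⟩ := c
  exact idx_mem hc hY hs Z

end Cyc

section Index

variable {G Y H K E : Type} [Group G] [TopologicalSpace Y] [MulAction G Y]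
  [ContinuousConstSMul G Y] [NormedAddCommGroup H] [InnerProductSpace ℂ H] [CompleteSpace H]
  [NormedAddCommGroup K] [InnerProductSpace ℂ K] [CompleteSpace K]
  [NormedAddCommGroup E] [InnerProductSpace ℂ E] [CompleteSpace E]

theorem cls_eq {R : Type} [Ring R] {n : ℕ} (e : Matrix (Fin n) (Fin n) R) (h : e * e = e) :
    Idem.cls ⟨n, e, h⟩ = KZero.cls e h := KZero.of_eq ⟨n, e, h⟩

theorem map_icls {R S : Type} [Ring R] [Ring S] (φ : R →ₙ+* S) (q : Idem R) :
    KZero.map φ q.cls = Idem.cls ⟨q.n, q.e.map φ, map_idem φ q.idem⟩ :=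
  Pres.map_of _ (Idem.map_sim φ) (Idem.map_isSum φ) q

theorem isDiff_iff {R S : Type} [Ring R] [Ring S] (φ : R ≃+* S) {A : Matrix (Fin 2) (Fin 2) R}
    {M : Matrix (Fin 2) (Fin 2) S} (hA : A.map φ = M) (hM : addDiag M * addDiag M = addDiag M)
    (x : KZero R) : IsDiff A x ↔
      kEq φ x = KZero.cls _ hM - KZero.cls (diag01 S) (P089G.diag01_idem _) := by
  have e1 : (addDiag A).map φ = addDiag M := (map_addDiag φ.toRingHom A).trans (congrArg _ hA)
  have e2 : (diag01 R).map φ = diag01 S := map_diag01 φ.toRingHom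
  have e3 : addDiag A * addDiag A = addDiag A := by
    refine Matrix.map_injective φ.injective ?_
    change (addDiag A * addDiag A).map φ = (addDiag A).map φ
    rw [Matrix.map_mul, e1, hM]
  have e4 : kEq φ (KZero.cls _ e3 - KZero.cls (diag01 R) (P089G.diag01_idem _)) =
      KZero.cls _ hM - KZero.cls (diag01 S) (P089G.diag01_idem _) := by
    rw [map_sub, kEq_cls, kEq_cls]
    exact congrArg₂ (· - ·) (KZero.cls_congr _ hM e1) (KZero.cls_congr _ _ e2)
  rw [← e4, (kEq φ).injective.eq_iff]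
  constructor
  · rintro ⟨h, h', rfl⟩
    rw [cls_eq, cls_eq]
  · rintro rfl
    exact ⟨e3, P089G.diag01_idem _, by rw [cls_eq, cls_eq]⟩

variable (c : HilbertBasis (G × ℕ) ℂ E) (hB : ∀ T, T ∈ stab c ↔ BC.IsU c T)

theorem isDiff_of (hY : IsProperCocompact G Y) (hs : SeparableSpace H) {Z : Cycle G Y H}
    {A : Matrix (Fin 2) (Fin 2) (stab c)} (hA : IsIndexMat c Z A) (x : KZero (stab c)) :
    IsDiff A x ↔ kEq (eU c (stab c) hB) x = iU hY hs Z := by
  have := hY.2.2.1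
  obtain ⟨w, p, ι, d, u, hw, hp, h⟩ := hA
  rw [hp.eq (finite_shift hw.1)] at h
  rw [iU_cj hY hs Z hw d u]
  have e : A.map (eU c (stab c) hB) = matU Z hw (cj_cp d u) :=
    Matrix.ext fun j k => Subtype.ext (isSum_iff.1 (h j k))
  exact isDiff_iff _ e (matU_idem Z hw (cj_cp d u)) x

include hB in
theorem exists_indexMat (hY : IsProperCocompact G Y) (hs : SeparableSpace H) (Z : Cycle G Y H) :
    ∃ A, IsIndexMat c Z A := by
  have := hY.2.2.1
  obtain ⟨w, hw⟩ := exists_cutoff hY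
  obtain ⟨ι, d, ⟨u⟩⟩ := exists_basis hs
  exact ⟨(matU Z hw (cj_cp d u)).map (eU c (stab c) hB).symm, w, Z.proj w, ι, d, u, hw,
    ⟨Z.coeff_proj (finite_shift hw.1)⟩,
    fun j k => isSum_iff.2 (StarAlgEquiv.apply_symm_apply _ _)⟩

/-- The analytic index exists and is unique. -/
theorem isIndex_iff (hY : IsProperCocompact G Y) (hs : SeparableSpace H) (Z : Cycle G Y H)
    (x : KZero (stab c)) : IsIndex c Z x ↔ kEq (eU c (stab c) hB) x = iU hY hs Z :=
  ⟨fun ⟨⟨A, hA⟩, h⟩ => (isDiff_of c hB hY hs hA x).1 (h A hA), fun h =>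
    ⟨exists_indexMat c hB hY hs Z, fun _ hA => (isDiff_of c hB hY hs hA x).2 h⟩⟩

variable (b : HilbertBasis G ℂ K) (hA : ∀ T, T ∈ cstar b ↔ T ∈ BC.CstarR b)

theorem isStab_iff (κ : KZero (cstar b) →+ KZero (stab c)) :
    IsStab b c κ ↔ κ = KZero.map (corE b c (cstar b) hA (stab c) hB) := by
  constructor
  · refine fun h => Pres.hom_ext fun q => ?_
    obtain ⟨e, he, e1, e2⟩ := h q
    obtain rfl : e = q.e.map (corE b c (cstar b) hA (stab c) hB) := Matrix.ext fun j k =>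
      Subtype.ext (isCorner_unique (e1 j k) (isCorner_corE b c _ hA _ hB _))
    exact e2.trans (map_icls _ q).symm
  · rintro rfl q
    exact ⟨_, map_idem _ q.idem, fun j k => isCorner_corE b c _ hA _ hB _, map_icls _ q⟩

theorem isIndex_corE (hY : IsProperCocompact G Y) (hs : SeparableSpace H) (Z : Cycle G Y H)
    (x : KZero (cstar b)) : IsIndex c Z (KZero.map (corE b c (cstar b) hA (stab c) hB) x) ↔
      x = idx (cor_corA b (cstar b) hA) hY hs Z := by
  rw [isIndex_iff c hB hY hs, kEq_map_corE, ← map_corA, ← cor_idx (cor_corA b (cstar b) hA),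
    (map_corA_inj b _ hA).eq_iff]

end Index

section Mu

variable {G X K : Type} [Group G] [TopologicalSpace X] [MulAction G X] [ContinuousConstSMul G X]
  [CWComplex (Set.univ : Set X)] [NormedAddCommGroup K] [InnerProductSpace ℂ K] [CompleteSpace K]

/-- The assembly map. -/
noncomputable def mu {A : Type} [Ring A] {cor : A →ₙ+* UU G} (hc : Cor cor) (h : IsEG G X) :
    KG0 G X →+ KZero A :=
  kLift (fun Y c => idxC hc (h.properCocompact Y) c) (fun _ => idxC_sim hc _)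
    (fun _ => idxC_sum hc _) fun _ _ _ => idxC_push hc _ _ _ _

theorem mu_cls {A : Type} [Ring A] {cor : A →ₙ+* UU G} (hc : Cor cor) (h : IsEG G X)
    (Y : Sub G X) (c : Cyc G Y.Y) : mu hc h (KG0.cls Y c) = idxC hc (h.properCocompact Y) c :=
  kLift_cls _ _ _ _ Y c

theorem mu_mem {A : Type} [Ring A] {cor : A →ₙ+* UU G} (hc : Cor cor) (h : IsEG G X)
    (z : KG0 G X) : KZero.map cor (mu hc h z) ∈ FP G :=
  k_mem ((KZero.map cor).comp (mu hc h)) _ (fun Y c => by
    rw [AddMonoidHom.comp_apply, mu_cls]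
    exact idxC_mem hc _ c) z

theorem one_mem {A : Type} [Ring A] {cor : A →ₙ+* UU G} (hc : Cor cor) [Countable G]
    (h : IsEG G X) : Idem.cls ⟨1, 1, one_mul 1⟩ ∈ (mu hc h).range := by
  obtain ⟨Y, ⟨y⟩⟩ := h.exists_point
  obtain ⟨Z, hZ⟩ := exists_idx_one hc (h.properCocompact Y) y
  have := P089GU.separable_L2 G
  exact ⟨KG0.cls Y ⟨L2 G, Z⟩, (mu_cls hc h Y _).trans (hZ.trans (cls_eq _ _).symm)⟩

variable (h : IsEG G X) (b : HilbertBasis G ℂ K)

theorem cstar_ok (T : K →L[ℂ] K) : T ∈ cstar b ↔ T ∈ BC.CstarR b := mem_cstar_iff b T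

theorem stab_ok {E : Type} [NormedAddCommGroup E] [InnerProductSpace ℂ E] [CompleteSpace E]
    (c : HilbertBasis (G × ℕ) ℂ E) (T : E →L[ℂ] E) : T ∈ stab c ↔ BC.IsU c T := mem_stab_iff c T

/-- The assembly map with values in `K_0(cstar b)`. -/
noncomputable def asm : KG0 G X →+ KZero (cstar b) := mu (cor_corA b (cstar b) (cstar_ok b)) h

theorem isAssembly_iff (μ : KG0 G X →+ KZero (cstar b)) : IsAssembly b μ ↔ μ = asm h b := by
  constructor
  · refine fun hμ => k_ext fun Y c => ?_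
    obtain @⟨H, _, _, _, hs, Z⟩ := c
    obtain ⟨κ, e1, -, e2⟩ := hμ (L2 (G × ℕ)) default
    rw [(isStab_iff _ (stab_ok _) b (cstar_ok b) κ).1 e1] at e2
    rw [asm, mu_cls, idxC_mk]
    exact (isIndex_corE _ (stab_ok _) b _ _ hs Z _).1 (e2 Y H Z)
  · rintro rfl E _ _ _ c
    exact ⟨_, (isStab_iff c (stab_ok c) b (cstar_ok b) _).2 rfl,
      map_corE_inj b c _ _ _ (stab_ok c),
      fun Y H _ _ _ hs Z => (isIndex_corE c (stab_ok c) b _ _ hs Z _).2 (mu_cls _ h Y _)⟩

/-- No nonzero multiple of the class of the detected projection is in the image. -/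
theorem exists_miss {P : L2 G →L[ℂ] L2 G} {len : G → ℕ} {κ : ℝ} (hD : BC.Detect P len κ)
    (hP : P ∈ CstarR G) (hPP : P * P = P) : ∃ (a : cstar b) (e : !![a] * !![a] = !![a]),
      a.1 = BC.toH b P ∧ ∀ m : ℤ, m ≠ 0 → m • Idem.cls ⟨1, !![a], e⟩ ∉ (asm h b).range := by
  obtain ⟨a, ha⟩ : ∃ a : cstar b, a.1 = BC.toH b P :=
    ⟨⟨_, (cstar_ok b _).2 (BC.toH_mem b hP)⟩, rfl⟩
  have e1 : a * a = a := Subtype.ext (by
    change a.1 * a.1 = a.1
    rw [ha, ← map_mul, hPP])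
  have e2 : (corA b (cstar b) (cstar_ok b) a).1 = Ei 0 0 P := by rw [corA_val, ha, frE_toH]
  have e3 : !![a] * !![a] = !![a] := by
    ext1 i j
    rw [Subsingleton.elim i 0, Subsingleton.elim j 0, Matrix.mul_apply, Fin.sum_univ_one]
    exact e1
  refine ⟨a, e3, ha, fun m hm => ?_⟩
  rw [cls_eq]
  exact miss_range_int _ _ (mu_mem _ h) hD hP hPP e2 _ e3 rfl m hm

include h in
theorem assemblyFails [Countable G] {P : L2 G →L[ℂ] L2 G} {len : G → ℕ} {κ : ℝ}
    (hD : BC.Detect P len κ) (hP : P ∈ CstarR G) (hPP : P * P = P) : AssemblyFails X b := by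
  obtain ⟨a, e, -, ha⟩ := exists_miss h b hD hP hPP
  refine ⟨asm h b, (isAssembly_iff h b _).2 rfl, fun μ => (isAssembly_iff h b μ).1,
    fun hs => ha 1 one_ne_zero (hs _), ⟨Idem.cls ⟨1, !![a], e⟩, fun m hm => ?_⟩, one_mem _ h⟩
  rw [← natCast_zsmul]
  exact ha m (by omega)

end Mu

/-- The counterexample. -/
theorem final : ∃ (G : Type) (_ : Group G), Countable G ∧ Group.FG G ∧
    (∃ (X : Type) (_ : TopologicalSpace X) (_ : MulAction G X) (_ : ContinuousConstSMul G X)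
      (_ : CWComplex (Set.univ : Set X)), IsEG G X) ∧
    ∀ (X : Type) [TopologicalSpace X] [MulAction G X] [ContinuousConstSMul G X]
      [CWComplex (Set.univ : Set X)], IsEG G X →
      ∀ (K : Type) [NormedAddCommGroup K] [InnerProductSpace ℂ K] [CompleteSpace K]
        (b : HilbertBasis G ℂ K), AssemblyFails X b := by
  obtain ⟨x, -, G, hG, hc, hfg, -, P, hP, hPP, -, -, len, κ, h1, h2, h3⟩ := opConclusionFG
  exact ⟨G, hG, hc, hfg, P089GE.exists_EG G, fun X _ _ _ _ h K _ _ _ b =>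
    assemblyFails h b (len := len) (κ := κ) ⟨h1, h2, h3⟩ hP hPP⟩

end Vale.Agent.P089GG
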